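import Vale.Agent.P183CH3.Sig
import Vale.Agent.P183BD.CHI

/-!
The split BN-pair of the group of fixed points (helper2).
-/

set_option autoImplicit false
set_option linter.all false

namespace Vale.Agent.P183CH3S

open Subgroup Vale.Agent.P183CH Vale.Agent.P183A Vale.Agent.P183CH3 Vale.Agent.P183CR
  Vale.Agent.P240.H195 Vale.Agent.P183BD

variable {R : RS} {k : Type} [Field k] {G : Type} [Group G] {Γ : RG R k G} {p : ℕ} {σ : G →* G}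
  {π : Equiv.Perm (Fin R.r)} {a : Fin R.r → ℕ} {e f d : ℕ} {J : Set (Fin R.r)} {w w' : R.Aut}
  {g n s b u v t : G} {i : Fin R.r}

lemma fix_of_mem (hg : g ∈ fixP p σ) : σ g = g :=
  (closure_le (σ.eqLocus (MonoidHom.id G))).2 (fun _ hg => hg.1) hg

lemma X_Inv_le (w : R.Aut) : Γ.X (R.Inv w) ≤ Γ.U := RG.X_mono fun _ h _ => h.2.1

lemma UJ_le (J : Set (Fin R.r)) : Γ.UJ J ≤ Γ.U := RG.X_mono fun _ h _ => h.2.1

lemma U_le : Γ.U ≤ Γ.Bo := le_sup_left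

lemma T_le : Γ.T ≤ Γ.Bo := le_sup_right

lemma map_nonneg (φ : R.Q →ₗ[ℤ] R.Q) (h : ∀ j ∈ J, 0 ≤ φ (R.α j)) {γ : R.Q} (hγ : γ ∈ R.PJ J) :
    0 ≤ φ γ := by
  rw [RS.eq_sum γ, map_sum]
  refine Finset.sum_nonneg fun j _ => ?_
  rw [map_smul]
  by_cases hj : j ∈ J
  · exact smul_nonneg (hγ.2.1 j) (h j hj)
  · rw [hγ.2.2 j hj, zero_smul]

lemma PJ_sub (h : ∀ j ∈ J, w (R.α j) ≤ 0) : R.PJ J ⊆ R.Inv w := fun γ hγ =>
  ⟨hγ.1, hγ.2.1, neg_nonneg.1 (map_nonneg (-(w : R.Q →ₗ[ℤ] R.Q))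
    (fun j hj => neg_nonneg.2 (h j hj)) hγ)⟩

lemma PJ_disj (hR : R.Ok) (hw : w ∈ R.W) (h : ∀ j ∈ J, 0 ≤ w (R.α j)) :
    Disjoint (R.PJ J) (R.Inv w) := Set.disjoint_left.2 fun γ hγ hγ' =>
  hR.not_both (hR.map_mem hw hγ.1) (map_nonneg (w : R.Q →ₗ[ℤ] R.Q) h hγ) hγ'.2.2

lemma Lg_inv (hR : R.Ok) (h : R.Lg J w) : w⁻¹ = w := inv_eq_of_mul_eq_one_right (hR.Lg_mul_self h)

lemma Lg_len (hR : R.Ok) (h : R.Lg J w) (hi : i ∈ J) : 0 < R.len w := by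
  refine Nat.pos_of_ne_zero fun h0 => ?_
  have h1 := h.2 i hi
  rw [hR.len_eq_zero (RS.WJ_le J h.1) h0] at h1
  exact hR.not_both (hR.simple i) (RS.α_nonneg i) h1

lemma dc_pos (hR : R.Ok) (hΓ : Γ.Ok) (hs : Γ.Rep s w) (hw : R.Lg J w) (hn : Γ.Rep n w')
    (h : ∀ j ∈ J, 0 ≤ w'⁻¹ (R.α j)) (hb : b ∈ Γ.Bo) : DC Γ.Bo (s * n) (s * b * n) := by
  obtain ⟨u, hu, t, ht, rfl⟩ := hΓ.mem_Bo.1 hb
  have h1 : Γ.Rep (t * n) w' := by simpa using (RG.rep_T ht).mul hn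
  obtain ⟨x, hx, y, hy, h2⟩ := hΓ.cell_mul hR (J := Set.univ) hs h1
    (by rw [hR.Lg_Inv hw]; exact PJ_disj hR (inv_mem hn.mem_W) h) hs.mem_W hn.mem_W
    (RG.UJ_univ (Γ := Γ) ▸ hu)
  refine ⟨x * (s * t * s⁻¹), mul_mem (U_le (UJ_le _ hx)) (T_le (hΓ.nm_N_T hR s hs.mem_N t ht)), y,
    U_le (UJ_le _ hy), ?_⟩
  calc s * (u * t) * n = s * u * (t * n) := by group
    _ = _ := by rw [h2]; group

variable [Fact p.Prime] [CharP k p] [IsAlgClosed k] (c : SC Γ p σ π a e f d)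
include c

lemma mem_of_U (hu : u ∈ Γ.U) (h : σ u = u) : u ∈ fixP p σ := by
  obtain ⟨m, hm⟩ := c.hΓ.U_pow c.hR p
  exact subset_closure ⟨h, m, hm u hu⟩

lemma sig_Inv (h2 : ∀ γ, sg R p π a (w' γ) = w (sg R p π a γ)) (hv : v ∈ Γ.X (R.Inv w)) :
    σ v ∈ Γ.X (R.Inv w') := by
  refine c.sig_X (S' := R.Inv w') (fun γ hγ h3 =>
    And.intro (c.tw.rho_mem h3) ⟨(c.tw.rho_nonneg h3).2 hγ.2.1, ?_⟩) hv
  rw [← c.tw.sg_nonpos, h2, c.tw.sg_rho h3, map_smul]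
  exact smul_nonpos_of_nonneg_of_nonpos (c.tw.ppos _).le hγ.2.2

lemma fix_bruhat (hu : u ∈ Γ.U) (hn : Γ.Rep n w) (hv : v ∈ Γ.X (R.Inv w))
    (h : σ (u * n * v) = u * n * v) : σ u = u ∧ σ n = n ∧ σ v = v := by
  obtain ⟨w', h1, h2⟩ := c.sig_rep hn
  rw [map_mul, map_mul] at h
  exact c.hΓ.bruhat_unique c.hR h1 hn (c.sig_U hu) hu (sig_Inv c h2 hv) hv h

/-- the Bruhat decomposition in `K` -/
lemma bruK (hg : g ∈ fixP p σ) : ∃ u ∈ Γ.U ⊓ fixP p σ, ∃ n ∈ fixP p σ, ∃ w, Γ.Rep n w ∧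
    ∃ v ∈ Γ.U ⊓ fixP p σ, g = u * n * v := by
  obtain ⟨u, hu, n, w, hn, v, hv, rfl⟩ := c.hΓ.bruhat c.hR g
  obtain ⟨h1, -, h2⟩ := fix_bruhat c hu hn hv (fix_of_mem hg)
  have h3 := mem_of_U c hu h1
  have h4 := mem_of_U c (X_Inv_le w hv) h2
  refine ⟨u, ⟨hu, h3⟩, n, ?_, w, hn, v, ⟨X_Inv_le w hv, h4⟩, rfl⟩
  convert mul_mem (mul_mem (inv_mem h3) hg) (inv_mem h4) using 1
  group

lemma splitK (hb : b ∈ Γ.Bo) (hK : b ∈ fixP p σ) :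
    ∃ u ∈ Γ.U ⊓ fixP p σ, ∃ t ∈ Γ.T ⊓ fixP p σ, b = u * t := by
  obtain ⟨u, hu, t, ht, rfl⟩ := c.hΓ.mem_Bo.1 hb
  have h1 := mem_of_U c hu (fix_bruhat c hu (RG.rep_T ht) (one_mem _)
    (by rw [mul_one]; exact fix_of_mem hK)).1
  exact ⟨u, ⟨hu, h1⟩, t, ⟨ht, by simpa using mul_mem (inv_mem h1) hK⟩, rfl⟩

lemma dcK (hg : g ∈ fixP p σ) (hn : n ∈ fixP p σ) (hN : n ∈ Γ.N) (h : DC Γ.Bo n g) :
    DC (Γ.Bo ⊓ fixP p σ) n g := by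
  obtain ⟨w, -, hw⟩ := RG.exists_rep (RG.NJ_univ (Γ := Γ) ▸ hN)
  obtain ⟨u, hu, m, hm, w', hm', v, hv, rfl⟩ := bruK c hg
  obtain ⟨x, hx, y, hy, h⟩ := h
  have h1 : w' = w := c.hΓ.cell_eq' c.hR hw hm' (mul_mem (inv_mem (U_le hu.1)) hx)
    (mul_mem hy (inv_mem (U_le hv.1))) (by
      calc m = u⁻¹ * (u * m * v) * v⁻¹ := by group
        _ = _ := by rw [h]; group)
  subst h1
  exact ⟨u * (m * n⁻¹), ⟨mul_mem (U_le hu.1) (T_le (c.hΓ.rep_div c.hR hm' hw).1),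
    (fixP p σ).mul_mem hu.2 (mul_mem hm (inv_mem hn))⟩, v, ⟨U_le hv.1, hv.2⟩, by group⟩

lemma step (h2 : ∀ γ, sg R p π a (w' γ) = w (sg R p π a γ)) (j : Fin R.r) :
    w' (R.α (π j)) ≤ 0 ↔ w (R.α j) ≤ 0 := by
  rw [← c.tw.sg_nonpos, h2, sg_al, map_smul]
  exact forall_congr' fun l => ⟨fun h => nonpos_of_mul_nonpos_right h (c.tw.ppos _),
    fun h => mul_nonpos_of_nonneg_of_nonpos (c.tw.ppos _).le h⟩

/-- fixed elements of `N` treat all simple roots of an orbit alike -/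
lemma dich (hn : Γ.Rep n w) (hK : n ∈ fixP p σ) (i : Fin R.r) :
    (∀ j ∈ {j | π.SameCycle i j}, 0 ≤ w (R.α j)) ∨ ∀ j ∈ {j | π.SameCycle i j}, w (R.α j) ≤ 0 := by
  have h1 : ∀ j, π.SameCycle i j → (w (R.α j) ≤ 0 ↔ w (R.α i) ≤ 0) := by
    intro j hj
    obtain ⟨l, -, rfl⟩ := hj.exists_pow_eq'
    induction l with
    | zero => rfl
    | succ l ih =>
      rw [pow_succ', Equiv.Perm.mul_apply, step c (c.rep_fix hn (fix_of_mem hK))]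
      exact ih ⟨l, rfl⟩
  by_cases h : w (R.α i) ≤ 0
  · exact Or.inr fun j hj => (h1 j hj).2 h
  · exact Or.inl fun j hj => (c.hR.sign _ (c.hR.map_mem hn.mem_W (c.hR.simple j))).2.resolve_right
      fun h2 => h ((h1 j hj).1 h2)

lemma rank_one (hs : Γ.Rep s w) (hw : R.Lg {j | π.SameCycle i j} w) (hK : s ∈ fixP p σ)
    (hb : b ∈ Γ.Bo) (hb' : b ∈ fixP p σ) : s * b * s⁻¹ ∈ Γ.Bo ∨ DC Γ.Bo s (s * b * s⁻¹) := by
  have hR := c.hR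
  have hΓ := c.hΓ
  obtain ⟨x, hx, m, hm, w', hm', y, hy, h⟩ := bruK c (mul_mem (mul_mem hK hb') (inv_mem hK))
  obtain ⟨u, hu, t, ht, rfl⟩ := hΓ.mem_Bo.1 hb
  obtain ⟨u₁, hu₁, u₂, hu₂, rfl⟩ := hΓ.X_split hR RS.cl_Pos
    (S := {γ | γ ∈ R.Φ ∧ 0 ≤ γ ∧ 0 ≤ w γ}) (S' := R.Inv w) (fun γ hγ =>
      (hR.sign _ (hR.map_mem hs.mem_W hγ.1)).2.imp (fun h => ⟨hγ.1, hγ.2, h⟩)
        fun h => ⟨hγ.1, hγ.2, h⟩) (RG.U_eq (Γ := Γ) ▸ hu)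
  have h1 : s * u₁ * s⁻¹ ∈ Γ.U := (hΓ.conj_mem_U hR hs (RG.X_mono (fun _ h _ => h.1.2) hu₁)).2
    (RG.X_mono (fun _ h _ => h.2) hu₁)
  have h2 : s * u₂ * s⁻¹ ∈ Γ.GJ {j | π.SameCycle i j} :=
    mem_sup_left (RG.X_mono (fun _ h _ => h.2) ((hΓ.Lg_conj hR hs hw).1
      (RG.X_mono (fun _ h _ => hR.Lg_Inv hw ▸ h.2) hu₂)))
  obtain ⟨x', hx', m', w'', hw'', hm'', y', hy', h3⟩ := hΓ.bruhatJ hR h2
  have h4 : w' = w'' := hΓ.cell_eq' hR hm'' hm'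
    (mul_mem (inv_mem (U_le hx.1)) (mul_mem (U_le h1) (U_le (UJ_le _ hx'))))
    (mul_mem (mul_mem (U_le (X_Inv_le _ hy')) (T_le (hΓ.nm_N_T hR s hs.mem_N t ht)))
      (inv_mem (U_le hy.1))) (by
      calc m = x⁻¹ * (x * m * y) * y⁻¹ := by group
        _ = x⁻¹ * (s * u₁ * s⁻¹ * (s * u₂ * s⁻¹) * (s * t * s⁻¹)) * y⁻¹ := by rw [← h]; group
        _ = _ := by rw [h3]; group)
  subst h4
  rw [h]
  rcases dich c hm' hm i with h5 | h5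
  · rw [hR.eq_one hw'' h5] at hm'
    exact Or.inl (mul_mem (mul_mem (U_le hx.1) (T_le (hΓ.rep_one hR hm'))) (U_le hy.1))
  · rw [hR.Lg_unique ⟨hw'', h5⟩ hw] at hm'
    exact Or.inr ⟨x * (m * s⁻¹), mul_mem (U_le hx.1) (T_le (hΓ.rep_div hR hm' hs).1), y,
      U_le hy.1, by group⟩

lemma mulK (hs : Γ.Rep s w) (hw : R.Lg {j | π.SameCycle i j} w) (hK : s ∈ fixP p σ)
    (hb : b ∈ Γ.Bo) (hb' : b ∈ fixP p σ) (hN : n ∈ Γ.N) (hn : n ∈ fixP p σ) :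
    DC Γ.Bo n (s * b * n) ∨ DC Γ.Bo (s * n) (s * b * n) := by
  have hR := c.hR
  have hΓ := c.hΓ
  obtain ⟨w', -, hn'⟩ := RG.exists_rep (RG.NJ_univ (Γ := Γ) ▸ hN)
  rcases dich c hn'.inv (inv_mem hn) i with h | h
  · exact Or.inr (dc_pos hR hΓ hs hw hn' h hb)
  · rcases rank_one c hs hw hK hb hb' with h1 | ⟨x, hx, y, hy, h1⟩
    · exact Or.inr ⟨_, h1, 1, one_mem _, by group⟩
    · obtain ⟨x', hx', y', hy', h2⟩ := dc_pos hR hΓ hs hw (hs.mul hn') (fun j hj => by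
        obtain ⟨j', hj', h3⟩ := hR.Lg_α hw hj
        rw [mul_inv_rev, Lg_inv hR hw, LinearEquiv.mul_apply, h3, map_neg, neg_nonneg]
        exact h j' hj') hy
      have h3 : s * s ∈ Γ.T := hΓ.rep_one hR (hR.Lg_mul_self hw ▸ hs.mul hs)
      refine Or.inl ⟨x * x' * (s * s), mul_mem (mul_mem hx hx') (T_le h3), y', hy', ?_⟩
      calc s * b * n = s * b * s⁻¹ * (s * n) := by group
        _ = x * (s * y * (s * n)) := by rw [h1]; group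
        _ = _ := by rw [h2]; group

/-- representatives of the longest elements of the orbits -/
theorem exists_nJ (hU : ∃ u ∈ Γ.UJ {j | π.SameCycle i j}, σ u = u ∧ u ≠ 1) :
    ∃ n ∈ fixP p σ, ∃ w, R.Lg {j | π.SameCycle i j} w ∧ Γ.Rep n w := by
  have hR := c.hR
  have hΓ := c.hΓ
  obtain ⟨u, hu, h1, h2⟩ := hU
  obtain ⟨w, hw⟩ := hR.exists_Lg {j | π.SameCycle i j}
  obtain ⟨s, hs', hs⟩ := RG.exists_rep' (Γ := Γ) hw.1
  have h3 : σ s * s⁻¹ ∈ Γ.T := by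
    have h4 : σ s ∈ Γ.NJ {j | π.SameCycle i j} := by
      refine (sup_le (fun t ht => mem_sup_left (c.sig_T ht)) ((closure_le _).2 ?_) :
        _ ≤ (Γ.NJ {j | π.SameCycle i j}).comap σ) hs'
      rintro _ ⟨j, hj, rfl⟩
      exact mem_sup_right (subset_closure ⟨π j, hj.apply_right, (c.sig_n j).symm⟩)
    obtain ⟨w₁, hw₁, h5⟩ := RG.exists_rep h4
    obtain ⟨w₂, h6, h7⟩ := c.sig_rep hs
    rw [← hΓ.rep_unique hR h5 h6] at h7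
    rw [hR.Lg_unique (w := w₁) ⟨hw₁, fun j hj => ?_⟩ hw] at h5
    · exact (hΓ.rep_div hR h5 hs).1
    · rw [← π.apply_symm_apply j, step c h7]
      exact hw.2 _ (Equiv.Perm.sameCycle_apply_right.1 (by rwa [π.apply_symm_apply]))
  have h4 := (hΓ.Lg_conj hR hs hw).1 hu
  obtain ⟨x, hx, m, w', hw', hm, y, hy, h5⟩ := hΓ.bruhatJ hR
    (mem_sup_left (RG.X_mono (fun _ h _ => h.2) h4))
  obtain ⟨w₂, h6, h7⟩ := c.sig_rep hm
  set t := σ s * s⁻¹ with ht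
  have h8 : Γ.Rep (t * m * t⁻¹) w' := by
    simpa using ((RG.rep_T h3).mul hm).mul (RG.rep_T (inv_mem h3))
  obtain ⟨e1, -, e2⟩ := hΓ.bruhat_unique hR h6 h8 (c.sig_U (UJ_le _ hx))
    (hΓ.nm_T_X _ t h3 x (UJ_le _ hx)) (sig_Inv c h7 hy) (hΓ.nm_T_X _ t h3 y hy) (by
      rw [← map_mul, ← map_mul, ← h5, map_mul, map_mul, map_inv, h1]
      calc σ s * u * (σ s)⁻¹ = t * (s * u * s⁻¹) * t⁻¹ := by rw [ht]; group
        _ = _ := by rw [h5]; group)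
  have key : ∀ z ∈ Γ.U, σ z = t * z * t⁻¹ → s⁻¹ * z * s ∈ fixP p σ := by
    intro z hz h9
    obtain ⟨l, hl⟩ := hΓ.U_pow hR p
    refine subset_closure ⟨by rw [map_mul, map_mul, map_inv, h9, ht]; group, l, ?_⟩
    have := conj_pow (a := s⁻¹) (b := z) (i := p ^ l)
    rw [inv_inv] at this
    rw [this, hl z hz, mul_one, inv_mul_cancel]
  have h9 : s⁻¹ * m * s ∈ fixP p σ := by
    convert mul_mem (mul_mem (inv_mem (key x (UJ_le _ hx) e1)) (mem_of_U c (UJ_le _ hu) h1))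
      (inv_mem (key y (X_Inv_le _ hy) e2)) using 1
    calc s⁻¹ * m * s = s⁻¹ * (x⁻¹ * (x * m * y) * y⁻¹) * s := by group
      _ = _ := by rw [← h5]; group
  have h10 := (hs.inv.mul hm).mul hs
  have h11 : w⁻¹ * w' * w ∈ R.WJ {j | π.SameCycle i j} := mul_mem (mul_mem (inv_mem hw.1) hw') hw.1
  rcases dich c h10 h9 i with h12 | h12
  · exfalso
    have h13 : w' = 1 := by
      have := hR.eq_one h11 h12
      calc w' = w * (w⁻¹ * w' * w) * w⁻¹ := by group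
        _ = 1 := by rw [this]; group
    rw [h13] at hm
    obtain ⟨z, hz, t', ht', h14⟩ := hΓ.mem_Bo.1 (mul_mem (mul_mem (U_le (UJ_le _ hx))
      (T_le (hΓ.rep_one hR hm))) (U_le (X_Inv_le _ hy)))
    obtain ⟨rfl, rfl⟩ := hΓ.tri z hz t' ht' (by
      rw [← h14, ← h5]; exact RG.X_mono (fun _ h _ => h.1) h4)
    apply h2
    calc u = s⁻¹ * (s * u * s⁻¹) * s := by group
      _ = 1 := by rw [h5, h14]; group
  · exact ⟨_, h9, _, ⟨h11, h12⟩, h10⟩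

variable (hU : ∀ i, ∃ u ∈ Γ.UJ {j | π.SameCycle i j}, σ u = u ∧ u ≠ 1)
include hU

lemma spanK (n : fixP p σ) (hn : Γ.Rep n.1 w) : n ∈ closure (RK Γ π (fixP p σ)) ⊔
    (Γ.Bo.subgroupOf (fixP p σ) ⊓ Γ.N.subgroupOf (fixP p σ)) := by
  have hR := c.hR
  induction hl : R.len w using Nat.strong_induction_on generalizing n w with
  | _ l ih =>
    by_cases h : ∀ j ∈ Set.univ, 0 ≤ w (R.α j)
    · rw [hR.eq_one hn.mem_W h] at hn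
      exact mem_sup_right ⟨T_le (c.hΓ.rep_one hR hn), hn.mem_N⟩
    · push Not at h
      obtain ⟨i, -, hi⟩ := h
      obtain ⟨s, hs, w', hw', hs'⟩ := exists_nJ c (hU i)
      have h1 := (dich c hn n.2 i).resolve_left fun h => hi (h i (Equiv.Perm.SameCycle.refl _ _))
      have h2 := hR.len_mul hn.mem_W hs'.mem_W
      rw [Lg_inv hR hw', Set.inter_eq_right.2 (by rw [hR.Lg_Inv hw']; exact PJ_sub h1)] at h2
      have h3 := Lg_len hR hw' (Equiv.Perm.SameCycle.refl π i)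
      have h4 := ih _ (by unfold RS.len at *; omega) (n * ⟨s, hs⟩) (hn.mul hs') rfl
      have h5 := mul_mem h4 (inv_mem (mem_sup_left (subset_closure
        (show (⟨s, hs⟩ : fixP p σ) ∈ RK Γ π (fixP p σ) from ⟨i, w', hw', hs'⟩))))
      rwa [mul_inv_cancel_right] at h5

lemma exists_long : ∃ n ∈ fixP p σ, ∃ w, R.Lg Set.univ w ∧ Γ.Rep n w := by
  have hR := c.hR
  by_contra hne
  have key : ∀ l : ℕ, ∃ n ∈ fixP p σ, ∃ w, Γ.Rep n w ∧ l ≤ R.len w := by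
    intro l
    induction l with
    | zero => exact ⟨1, one_mem _, 1, RG.rep_T (one_mem _), Nat.zero_le _⟩
    | succ l ih =>
      obtain ⟨n, hn, w, hw, hl⟩ := ih
      by_cases h : ∀ j ∈ Set.univ, w (R.α j) ≤ 0
      · exact absurd ⟨n, hn, w, ⟨hw.mem_W, h⟩, hw⟩ hne
      · push Not at h
        obtain ⟨i, -, hi⟩ := h
        obtain ⟨s, hs, w', hw', hs'⟩ := exists_nJ c (hU i)
        have h1 := (dich c hw hn i).resolve_right fun h => hi (h i (Equiv.Perm.SameCycle.refl _ _))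
        have h2 := hR.len_of_disj hw.mem_W hs'.mem_W (by
          rw [Lg_inv hR hw', hR.Lg_Inv hw']; exact (PJ_disj hR hw.mem_W h1).symm)
        have h3 := Lg_len hR hw' (Equiv.Perm.SameCycle.refl π i)
        exact ⟨n * s, mul_mem hn hs, _, hw.mul hs', by omega⟩
  obtain ⟨n, -, w, -, hl⟩ := key (R.Pos.ncard + 1)
  have : R.len w ≤ R.Pos.ncard := Set.ncard_le_ncard (fun _ h => ⟨h.1, h.2.1⟩) RS.Pos_finite
  omega

/-- **The split BN-pair of `K`.** -/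
theorem sba : SBA p (Γ.Bo.subgroupOf (fixP p σ)) (Γ.N.subgroupOf (fixP p σ))
    (Γ.U.subgroupOf (fixP p σ)) (RK Γ π (fixP p σ)) := by
  have hR := c.hR
  have hΓ := c.hΓ
  have hdc : ∀ n g : fixP p σ, n.1 ∈ Γ.N → DC Γ.Bo n.1 g.1 → DC (Γ.Bo.subgroupOf (fixP p σ)) n g := by
    intro n g hn h
    obtain ⟨x, hx, y, hy, h⟩ := dcK c g.2 n.2 hn h
    exact ⟨⟨x, hx.2⟩, hx.1, ⟨y, hy.2⟩, hy.1, Subtype.ext h⟩
  refine
    { norm := fun n hn t ht ht' => T_le (hΓ.nm_N_T hR n.1 hn t.1 (hΓ.Bo_inf_N hR ht' ht))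
      sub := fun s ⟨_, _, _, hs⟩ => hs.mem_N
      span := le_antisymm (fun n hn => ?_)
        (sup_le ((closure_le _).2 fun s ⟨_, _, _, hs⟩ => hs.mem_N) inf_le_right)
      sq := fun s ⟨_, _, hw, hs⟩ => T_le (hΓ.rep_one hR (hR.Lg_mul_self hw ▸ hs.mul hs))
      mul := fun s ⟨_, _, hw, hs⟩ b hb n hn => (mulK c hs hw s.2 hb b.2 hn n.2).imp
        (hdc n _ hn) (hdc (s * n) _ (mul_mem hs.mem_N hn))
      thick := fun s ⟨i, w, hw, hs⟩ => ?_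
      gen := eq_top_iff.2 fun g _ => ?_
      le := fun u hu => U_le hu
      pgroup := fun u => ?_
      normal := fun b hb u hu => hΓ.nm_Bo b.1 hb u.1 hu
      split := fun b hb => ?_
      coprime := fun h => ?_
      strong := fun s ⟨i, w, hw, hs⟩ x hx h u hu => ?_
      opp := ?_
      nonempty := ?_
      prime := Fact.out
      comm := fun x hx hx' y hy hy' => Subtype.ext
        (hΓ.T_comm (hΓ.Bo_inf_N hR hx' hx) (hΓ.Bo_inf_N hR hy' hy)) }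
  · obtain ⟨w, -, hw⟩ := RG.exists_rep (RG.NJ_univ (Γ := Γ) ▸ (show n.1 ∈ Γ.N from hn))
    exact spanK c hU n hw
  · obtain ⟨u, hu, h1, h2⟩ := hU i
    refine ⟨⟨u, mem_of_U c (UJ_le _ hu) h1⟩, U_le (UJ_le _ hu), fun h => h2 ?_⟩
    obtain ⟨z, hz, t, ht, h3⟩ := hΓ.mem_Bo.1 h
    have h4 := (hΓ.Lg_conj hR (Lg_inv hR hw ▸ hs.inv) hw).1 hu
    rw [inv_inv] at h4
    have h5 : s.1⁻¹ * u * s.1 = z * t := h3
    obtain ⟨rfl, rfl⟩ := hΓ.tri z hz t ht (h5 ▸ RG.X_mono (fun _ h _ => h.1) h4)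
    calc u = s.1 * (s.1⁻¹ * u * s.1) * s.1⁻¹ := by group
      _ = 1 := by rw [h5]; group
  · obtain ⟨u, hu, n, hn, w, hw, v, hv, h⟩ := bruK c g.2
    rw [show g = ⟨u, hu.2⟩ * ⟨n, hn⟩ * ⟨v, hv.2⟩ from Subtype.ext h]
    exact mul_mem (mul_mem (mem_sup_left (U_le hu.1)) (mem_sup_right hw.mem_N))
      (mem_sup_left (U_le hv.1))
  · obtain ⟨m, hm⟩ := hΓ.U_pow hR p
    exact ⟨m, Subtype.ext (Subtype.ext (hm u.1.1 u.2))⟩
  · obtain ⟨u, hu, t, ht, h⟩ := splitK c hb b.2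
    exact ⟨⟨u, hu.2⟩, hu.1, ⟨t, ht.2⟩, T_le ht.1, mem_sup_left ht.1, Subtype.ext h⟩
  · haveI : Finite (fixP p σ) := (c.hσ.fin.subset fun g hg => fix_of_mem hg).to_subtype
    obtain ⟨t, ht⟩ := exists_prime_orderOf_dvd_card' p h
    have h1 : t.1.1 = 1 := hΓ.T_torsion hR p (hΓ.Bo_inf_N hR t.2.2 t.2.1)
      (congrArg (fun z => z.1.1) (ht ▸ pow_orderOf_eq_one t))
    rw [show t = 1 from Subtype.ext (Subtype.ext h1), orderOf_one] at ht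
    exact (Fact.out : p.Prime).one_lt.ne ht
  · have h1 : u.1 * x.1 * u.1⁻¹ ∈ Γ.U := mul_mem (mul_mem hu hx) (inv_mem hu)
    refine (hΓ.conj_mem_U hR hs h1).2 (hΓ.nm_X hR (S := R.Pos) subset_rfl
      (fun _ h => ⟨h.1, h.2.1⟩) ?_ u.1 (RG.U_eq (Γ := Γ) ▸ hu) x.1 ((hΓ.conj_mem_U hR hs hx).1 h))
    intro γ hγ δ hδ l m hl hm h2
    have h3 : 0 ≤ l • γ + m • δ := add_nonneg (nsmul_nonneg hγ.2 _) (nsmul_nonneg hδ.2.1 _)
    refine ⟨h2, h3, (hR.pos_of_not_In hw.1 ⟨h2, h3⟩ fun h4 => ?_).2⟩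
    refine hR.not_both (hR.map_mem hs.mem_W hδ.1) hδ.2.2 (hR.Lg_neg hw hδ.2.1 fun j hj => ?_)
    have h5 : l • γ j + m • δ j = 0 := h4 j hj
    have h6 : 0 ≤ γ j := hγ.2 j
    have h7 : 0 ≤ δ j := hδ.2.1 j
    rw [nsmul_eq_mul, nsmul_eq_mul] at h5
    have h8 : (0 : ℤ) < m := by exact_mod_cast hm
    nlinarith [mul_nonneg (Nat.cast_nonneg (α := ℤ) l) h6]
  · obtain ⟨n, hn, w, hw, hn'⟩ := exists_long c hU
    refine ⟨⟨n, hn⟩, hn'.mem_N, fun x hx h => Subtype.ext ?_⟩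
    have h1 : n * x.1 * n⁻¹ = 1 := hΓ.U_inf_V h ((hΓ.conj_mem_V hR hn' hx).2 (by
      rw [hR.Lg_Inv hw, RS.PJ_univ, ← RG.U_eq]; exact hx))
    calc x.1 = n⁻¹ * (n * x.1 * n⁻¹) * n := by group
      _ = 1 := by rw [h1]; group
  · obtain ⟨s, hs, w, hw, hs'⟩ := exists_nJ c (hU ⟨0, hR.pos⟩)
    exact ⟨⟨s, hs⟩, _, w, hw, hs'⟩

end Vale.Agent.P183CH3S
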