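import Vale.Agent.P183CH3S.BN
import Vale.Agent.P183CH3.NJ

/-!
The target of block CH3 (helper2, from the files of helper79).
-/

set_option autoImplicit false
set_option linter.all false

namespace Vale.Agent.P183CH3S

open Subgroup Vale.Agent.P183CH Vale.Agent.P183CH3 Vale.Agent.P183BD

theorem ch3t : CH3T := by
  intro R p _ G _ Γ σ π a e f d hR hΓ hσ
  have c : SC Γ p σ π a e f d := ⟨hR, hΓ, hσ⟩
  refine ⟨c.tw, sba c fun i => ?_, c.ser, fun t ht γ => c.chi_sig γ ht, fun t ht => c.iter_T ht⟩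
  obtain ⟨y, hy, h1, h2⟩ := c.exists_y i
  obtain ⟨n, hn, w, hw, hn'⟩ := c.exists_nJ i
  refine ⟨n * y * n⁻¹, (hΓ.Lg_conj' hR hn' hw).1 hy, ?_, fun h => h2 ?_⟩
  · rw [map_mul, map_mul, map_inv, h1, fix_of_mem hn]
  · calc y = n⁻¹ * (n * y * n⁻¹) * n := by group
      _ = 1 := by rw [h]; group

end Vale.Agent.P183CH3S
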